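import Mathlib

/-!
P249: assembly of the near-linear dimension reduction in `ℓ_p` from

* (A) a bound for the total pair-sensitivity of the coordinates of an `n`-point configuration
  (hypothesis `hA`), and
* (B) the sampling lemma (hypothesis `hB`),

first in coordinates (`coords_of`) and then for `PiLp` (`pilp_of_coords`).
-/

namespace Vale.Agent.Lib.P249.H77

open Finset

/-- From sampled coordinates to an embedding: rescale the sampled coordinate `κ l` by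
`(S / ((1 - ε) d s (κ l))) ^ (1 / p)`. -/
theorem embed_of_sample {n m : ℕ} (p : ℝ) (hp : 1 ≤ p) (ε : ℝ) (hε1 : ε < 1)
    (x : Fin n → Fin m → ℝ) (s : Fin m → ℝ) (hs0 : ∀ k, 0 ≤ s k) (S : ℝ) (hS : 0 ≤ S) (d : ℕ)
    (κ : Fin d → Fin m)
    (hκ : ∀ f : Fin n × Fin n,
      (1 - ε) * (∑ k, |x f.1 k - x f.2 k| ^ p)
        ≤ ∑ l, |x f.1 (κ l) - x f.2 (κ l)| ^ p * (S / ((d : ℝ) * s (κ l))) ∧
      ∑ l, |x f.1 (κ l) - x f.2 (κ l)| ^ p * (S / ((d : ℝ) * s (κ l)))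
        ≤ (1 + ε) * (∑ k, |x f.1 k - x f.2 k| ^ p)) :
    ∃ y : Fin n → Fin d → ℝ, ∀ a b,
      ∑ k, |x a k - x b k| ^ p ≤ ∑ l, |y a l - y b l| ^ p ∧
      ∑ l, |y a l - y b l| ^ p ≤ (1 + ε) / (1 - ε) * ∑ k, |x a k - x b k| ^ p := by
  have hp0 : 0 < p := by linarith
  have h1ε : 0 < 1 - ε := by linarith
  set c : Fin d → ℝ := fun l => S / ((d : ℝ) * s (κ l)) / (1 - ε) with hc
  have hc0 : ∀ l, 0 ≤ c l := fun l =>
    div_nonneg (div_nonneg hS (mul_nonneg (Nat.cast_nonneg d) (hs0 _))) h1ε.le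
  refine ⟨fun a l => x a (κ l) * (c l) ^ (1 / p), fun a b => ?_⟩
  have key : ∀ l, |x a (κ l) * (c l) ^ (1 / p) - x b (κ l) * (c l) ^ (1 / p)| ^ p
      = |x a (κ l) - x b (κ l)| ^ p * c l := by
    intro l
    rw [← sub_mul, abs_mul, abs_of_nonneg (Real.rpow_nonneg (hc0 l) _),
      Real.mul_rpow (abs_nonneg _) (Real.rpow_nonneg (hc0 l) _), ← Real.rpow_mul (hc0 l),
      one_div, inv_mul_cancel₀ hp0.ne', Real.rpow_one]
  have hsum : ∑ l, |x a (κ l) * (c l) ^ (1 / p) - x b (κ l) * (c l) ^ (1 / p)| ^ p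
      = (∑ l, |x a (κ l) - x b (κ l)| ^ p * (S / ((d : ℝ) * s (κ l)))) / (1 - ε) := by
    rw [Finset.sum_congr rfl (fun l _ => key l), Finset.sum_div]
    refine Finset.sum_congr rfl (fun l _ => ?_)
    rw [hc]
    ring
  obtain ⟨h1, h2⟩ := hκ (a, b)
  constructor
  · rw [hsum, le_div_iff₀ h1ε]
    linarith
  · rw [hsum, div_le_iff₀ h1ε]
    have h3 : (1 + ε) / (1 - ε) * (∑ k, |x a k - x b k| ^ p) * (1 - ε)
        = (1 + ε) * ∑ k, |x a k - x b k| ^ p := by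
      field_simp
    rw [h3]
    exact h2

/-- **Assembly in coordinates.**  From the sensitivity bound (A) and the sampling lemma (B):
every `n`-point configuration in `ℝ^m` has an image in `ℝ^d`, `d ≤ C n (log n)^(p+2)`, whose
`p`-th power distances are between those of the configuration and `D^p` times them. -/
theorem coords_of (p : ℝ) (hp : 1 ≤ p) (CA : ℝ) (hCA : 0 ≤ CA)
    (hA : ∀ (n m : ℕ) (x : Fin n → Fin m → ℝ), 2 ≤ n → ∃ s : Fin m → ℝ, (∀ k, 0 ≤ s k) ∧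
      (∀ k a b, |x a k - x b k| ^ p ≤ s k * ∑ k', |x a k' - x b k'| ^ p) ∧
      ∑ k, s k ≤ CA * n * Real.log n ^ (p + 1))
    (hB : ∀ (n m : ℕ) (w : Fin m → Fin n × Fin n → ℝ) (s : Fin m → ℝ)
      (v : Fin n × Fin n → ℝ) (S : ℝ),
      (∀ k f, 0 ≤ w k f) → (∀ f, v f = ∑ k, w k f) → (∀ k, 0 ≤ s k) →
      (∀ k f, w k f ≤ s k * v f) → S = ∑ k, s k → 0 < S → ∀ ε : ℝ, 0 < ε → ε ≤ 1 → ∀ d : ℕ,
      8 * S * Real.log (2 * (Fintype.card (Fin n × Fin n) : ℝ) + 1) ≤ ε ^ 2 * d →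
      ∃ κ : Fin d → Fin m, ∀ f,
        (1 - ε) * v f ≤ ∑ l, w (κ l) f * (S / ((d : ℝ) * s (κ l))) ∧
        ∑ l, w (κ l) f * (S / ((d : ℝ) * s (κ l))) ≤ (1 + ε) * v f)
    (D : ℝ) (hD : 1 < D) :
    ∃ C : ℝ, ∀ (n m : ℕ), 2 ≤ n → ∀ x : Fin n → Fin m → ℝ,
      ∃ (d : ℕ) (y : Fin n → Fin d → ℝ), (d : ℝ) ≤ C * n * Real.log n ^ (p + 2) ∧
        ∀ a b, ∑ k, |x a k - x b k| ^ p ≤ ∑ l, |y a l - y b l| ^ p ∧
          ∑ l, |y a l - y b l| ^ p ≤ D ^ p * ∑ k, |x a k - x b k| ^ p := by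
  have hp0 : 0 < p := by linarith
  have hDp : 1 < D ^ p := Real.one_lt_rpow hD hp0
  set ε : ℝ := (D ^ p - 1) / (D ^ p + 1) with hεdef
  have hε : 0 < ε := div_pos (by linarith) (by linarith)
  have hε1 : ε < 1 := by
    rw [hεdef, div_lt_one (by linarith)]
    linarith
  have hratio : (1 + ε) / (1 - ε) = D ^ p := by
    rw [hεdef]
    field_simp
    ring
  have hl2 : 0 < Real.log 2 := Real.log_pos (by norm_num)
  have hl2p : 0 < Real.log 2 ^ (p + 2) := Real.rpow_pos_of_pos hl2 _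
  refine ⟨32 * CA / ε ^ 2 + 1 / Real.log 2 ^ (p + 2), fun n m hn x => ?_⟩
  have hn2 : (2 : ℝ) ≤ n := by exact_mod_cast hn
  have hL : Real.log 2 ≤ Real.log n := Real.log_le_log (by norm_num) hn2
  have hL0 : 0 < Real.log n := lt_of_lt_of_le hl2 hL
  have hLp : 0 < Real.log n ^ (p + 2) := Real.rpow_pos_of_pos hL0 _
  have hC2 : (1 : ℝ) ≤ 1 / Real.log 2 ^ (p + 2) * n * Real.log n ^ (p + 2) := by
    have h1 : Real.log 2 ^ (p + 2) ≤ Real.log n ^ (p + 2) :=
      Real.rpow_le_rpow hl2.le hL (by linarith)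
    have h2 : (1 : ℝ) ≤ n := by linarith
    rw [one_div, inv_mul_eq_div, div_mul_eq_mul_div, le_div_iff₀ hl2p]
    nlinarith
  have hC1 : 0 ≤ 32 * CA / ε ^ 2 * n * Real.log n ^ (p + 2) := by positivity
  obtain ⟨s, hs0, hs, hsS⟩ := hA n m x hn
  rcases (Finset.sum_nonneg (fun k _ => hs0 k) : 0 ≤ ∑ k, s k).eq_or_lt with hS0 | hSpos
  · -- all sensitivities vanish: the configuration is a single point
    refine ⟨0, fun _ _ => 0, ?_, fun a b => ?_⟩
    · simp only [Nat.cast_zero]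
      have : 0 ≤ 1 / Real.log 2 ^ (p + 2) * n * Real.log n ^ (p + 2) := by linarith
      nlinarith
    · have hsk : ∀ k, s k = 0 := fun k =>
        (Finset.sum_eq_zero_iff_of_nonneg (fun k _ => hs0 k)).mp hS0.symm k (Finset.mem_univ k)
      have hw : ∀ k, |x a k - x b k| ^ p = 0 := by
        intro k
        have h1 := hs k a b
        rw [hsk k, zero_mul] at h1
        exact le_antisymm h1 (Real.rpow_nonneg (abs_nonneg _) _)
      simp only [Finset.univ_eq_empty, Finset.sum_empty]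
      rw [Finset.sum_eq_zero (fun k _ => hw k)]
      simp
  · -- sampling
    set B : ℝ := CA * n * Real.log n ^ (p + 1) with hB'
    have hB0 : 0 ≤ B := le_trans hSpos.le hsS
    have hcard : (Fintype.card (Fin n × Fin n) : ℝ) = (n : ℝ) * n := by
      rw [Fintype.card_prod, Fintype.card_fin]
      push_cast
      ring
    have hlogle : Real.log (2 * ((n : ℝ) * n) + 1) ≤ 4 * Real.log n := by
      have h1 : 2 * ((n : ℝ) * n) + 1 ≤ (n : ℝ) ^ 4 := by
        have hq : (4 : ℝ) ≤ (n : ℝ) * n := by nlinarith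
        have h4 : (n : ℝ) ^ 4 = ((n : ℝ) * n) * ((n : ℝ) * n) := by ring
        rw [h4]
        nlinarith
      have h2 : Real.log ((n : ℝ) ^ 4) = 4 * Real.log n := by
        rw [Real.log_pow]
        norm_num
      rw [← h2]
      exact Real.log_le_log (by positivity) h1
    have hlog0 : 0 ≤ Real.log (2 * ((n : ℝ) * n) + 1) :=
      Real.log_nonneg (by nlinarith)
    set A : ℝ := 8 * B * Real.log (2 * ((n : ℝ) * n) + 1) / ε ^ 2 with hAdef
    have hA0 : 0 ≤ A := by positivity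
    set d : ℕ := ⌈A⌉₊ with hd
    have hdA : A ≤ d := Nat.le_ceil A
    have hdlt : (d : ℝ) < A + 1 := Nat.ceil_lt_add_one hA0
    have hcond : 8 * (∑ k, s k) * Real.log (2 * (Fintype.card (Fin n × Fin n) : ℝ) + 1)
        ≤ ε ^ 2 * d := by
      rw [hcard]
      have h1 : 8 * (∑ k, s k) * Real.log (2 * ((n : ℝ) * n) + 1)
          ≤ 8 * B * Real.log (2 * ((n : ℝ) * n) + 1) :=
        mul_le_mul_of_nonneg_right (by linarith) hlog0
      have h2 : 8 * B * Real.log (2 * ((n : ℝ) * n) + 1) = ε ^ 2 * A := by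
        rw [hAdef]
        field_simp
      have h3 : ε ^ 2 * A ≤ ε ^ 2 * d := mul_le_mul_of_nonneg_left hdA (by positivity)
      linarith
    obtain ⟨κ, hκ⟩ := hB n m (fun k f => |x f.1 k - x f.2 k| ^ p) s
      (fun f => ∑ k, |x f.1 k - x f.2 k| ^ p) (∑ k, s k)
      (fun k f => Real.rpow_nonneg (abs_nonneg _) _) (fun f => rfl) hs0
      (fun k f => hs k f.1 f.2) rfl hSpos ε hε hε1.le d hcond
    obtain ⟨y, hy⟩ := embed_of_sample p hp ε hε1 x s hs0 (∑ k, s k) hSpos.le d κ hκ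
    refine ⟨d, y, ?_, fun a b => ?_⟩
    · -- the dimension bound
      have h1 : A ≤ 32 * CA / ε ^ 2 * n * Real.log n ^ (p + 2) := by
        have h2 : Real.log n ^ (p + 2) = Real.log n ^ (p + 1) * Real.log n := by
          rw [show p + 2 = (p + 1) + 1 by ring, Real.rpow_add_one hL0.ne']
        have h3 : 8 * B * Real.log (2 * ((n : ℝ) * n) + 1) ≤ 8 * B * (4 * Real.log n) :=
          mul_le_mul_of_nonneg_left hlogle (by positivity)
        rw [hAdef, div_le_iff₀ (by positivity)]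
        have h4 : 32 * CA / ε ^ 2 * n * Real.log n ^ (p + 2) * ε ^ 2
            = 8 * B * (4 * Real.log n) := by
          rw [h2, hB']
          field_simp
          ring
        rw [h4]
        exact h3
      have h5 : (32 * CA / ε ^ 2 + 1 / Real.log 2 ^ (p + 2)) * n * Real.log n ^ (p + 2)
          = 32 * CA / ε ^ 2 * n * Real.log n ^ (p + 2)
            + 1 / Real.log 2 ^ (p + 2) * n * Real.log n ^ (p + 2) := by ring
      rw [h5]
      linarith
    · have h6 := hy a b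
      rw [hratio] at h6
      exact h6

/-- **From coordinates to `PiLp`.** -/
theorem pilp_of_coords (p : ENNReal) [Fact (1 ≤ p)] (hp : p ≠ ⊤) (D : ℝ) (hD : 1 < D)
    (h : ∃ C : ℝ, ∀ (n m : ℕ), 2 ≤ n → ∀ x : Fin n → Fin m → ℝ,
      ∃ (d : ℕ) (y : Fin n → Fin d → ℝ), (d : ℝ) ≤ C * n * Real.log n ^ (p.toReal + 2) ∧
        ∀ a b, ∑ k, |x a k - x b k| ^ p.toReal ≤ ∑ l, |y a l - y b l| ^ p.toReal ∧
          ∑ l, |y a l - y b l| ^ p.toReal ≤ D ^ p.toReal * ∑ k, |x a k - x b k| ^ p.toReal) :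
    ∃ C : ℝ, ∀ (n m : ℕ), 2 ≤ n → ∀ x : Fin n → PiLp p (fun _ : Fin m => ℝ),
      ∃ (d : ℕ) (y : Fin n → PiLp p (fun _ : Fin d => ℝ)),
        (d : ℝ) ≤ C * n * Real.log n ^ (p.toReal + 2) ∧
        ∀ i j, dist (x i) (x j) ≤ dist (y i) (y j) ∧ dist (y i) (y j) ≤ D * dist (x i) (x j) := by
  obtain ⟨C, hC⟩ := h
  have hp1 : 1 ≤ p.toReal := by
    have h1 : (1 : ENNReal) ≤ p := Fact.out
    have h2 := ENNReal.toReal_mono hp h1
    simpa using h2
  have hp0 : 0 < p.toReal := by linarith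
  have hD0 : 0 ≤ D := by linarith
  refine ⟨C, fun n m hn x => ?_⟩
  obtain ⟨d, y, hd, hy⟩ := hC n m hn (fun a k => (x a) k)
  refine ⟨d, fun a => WithLp.toLp p (y a), hd, fun i j => ?_⟩
  obtain ⟨h1, h2⟩ := hy i j
  have ex : dist (x i) (x j) = (∑ k, |(x i) k - (x j) k| ^ p.toReal) ^ (1 / p.toReal) := by
    rw [PiLp.dist_eq_sum hp0]
    rfl
  have ey : dist (WithLp.toLp p (y i)) (WithLp.toLp p (y j))
      = (∑ l, |y i l - y j l| ^ p.toReal) ^ (1 / p.toReal) := by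
    rw [PiLp.dist_eq_sum hp0]
    rfl
  have hx0 : 0 ≤ ∑ k, |(x i) k - (x j) k| ^ p.toReal :=
    Finset.sum_nonneg (fun k _ => Real.rpow_nonneg (abs_nonneg _) _)
  have hy0 : 0 ≤ ∑ l, |y i l - y j l| ^ p.toReal :=
    Finset.sum_nonneg (fun k _ => Real.rpow_nonneg (abs_nonneg _) _)
  have hinv : 0 ≤ 1 / p.toReal := by positivity
  rw [ex, ey]
  constructor
  · exact Real.rpow_le_rpow hx0 h1 hinv
  · have h3 := Real.rpow_le_rpow hy0 h2 hinv
    rw [Real.mul_rpow (Real.rpow_nonneg hD0 _) hx0, ← Real.rpow_mul hD0,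
      mul_one_div_cancel hp0.ne', Real.rpow_one] at h3
    exact h3

end Vale.Agent.Lib.P249.H77
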