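import Mathlib

/-!
P249: the pair-sensitivity bound for the coordinates of an `n`-point configuration in `ℓ_p^m`.

For `x : Fin n → Fin m → ℝ` and `p ≥ 1` put `w k a b = |x a k - x b k|^p`,
`v a b = ∑ k, w k a b`, `δ a b = (v a b)^(1/p)` and `r k a b = w k a b / v a b`.  With the
potential `φ a b = 1 / #{y : δ a y ≤ δ a b}` and `T k = ∑ a b, φ a b * r k a b`:

* `sum_TT_le` : `∑ k, T k ≤ n * ∑_{t < n} 1 / (t + 1)`;
* `rr_le_TT`  : `r k i j ≤ 2^(1+p) (2 ⌊log₂ n⌋ + 2)^p T k` for every coordinate and every pair;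
* `sens`      : hence there are `s k ≥ 0` with `w k a b ≤ s k * v a b` and
  `∑ k, s k ≤ A n (log n)^(p+1)`.
-/

namespace Vale.Agent.Lib.P249.H77

open Finset

/-- convexity: `|u - v|^p ≤ 2^(p-1) (|u|^p + |v|^p)` -/
theorem abs_sub_rpow_le (u v p : ℝ) (hp : 1 ≤ p) :
    |u - v| ^ p ≤ 2 ^ (p - 1) * (|u| ^ p + |v| ^ p) := by
  have h1 : |u - v| ≤ |u| + |v| := abs_sub u v
  have h2 : |u - v| ^ p ≤ (|u| + |v|) ^ p := Real.rpow_le_rpow (abs_nonneg _) h1 (by linarith)
  have h3 := NNReal.rpow_add_le_mul_rpow_add_rpow ⟨|u|, abs_nonneg u⟩ ⟨|v|, abs_nonneg v⟩ hp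
  have h4 : (|u| + |v|) ^ p ≤ 2 ^ (p - 1) * (|u| ^ p + |v| ^ p) := by
    have h5 := NNReal.coe_le_coe.mpr h3
    push_cast at h5
    exact h5
  exact h2.trans h4

/-- the sum of the reciprocals of the numbers of points below a point is at most the harmonic
sum -/
theorem sum_inv_count_le {n : ℕ} (g : Fin n → ℝ) :
    ∑ b, 1 / ((univ.filter (fun y => g y ≤ g b)).card : ℝ) ≤ ∑ t : Fin n, 1 / ((t : ℝ) + 1) := by
  have hmono : Monotone (g ∘ Tuple.sort g) := Tuple.monotone_sort g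
  rw [← Equiv.sum_comp (Tuple.sort g)
    (fun b => 1 / ((univ.filter (fun y => g y ≤ g b)).card : ℝ))]
  refine Finset.sum_le_sum (fun t _ => ?_)
  have hcard : (t : ℕ) + 1 ≤ (univ.filter (fun y => g y ≤ g (Tuple.sort g t))).card := by
    have hsub : (Finset.Iic t).map (Tuple.sort g).toEmbedding
        ⊆ univ.filter (fun y => g y ≤ g (Tuple.sort g t)) := by
      intro y hy
      rw [Finset.mem_map] at hy
      obtain ⟨u, hu, rfl⟩ := hy
      rw [Finset.mem_filter]
      exact ⟨Finset.mem_univ _, hmono (Finset.mem_Iic.mp hu)⟩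
    have h1 := Finset.card_le_card hsub
    rw [Finset.card_map, Fin.card_Iic] at h1
    exact h1
  have hpos : (0 : ℝ) < (t : ℝ) + 1 := by positivity
  apply one_div_le_one_div_of_le hpos
  exact_mod_cast hcard

/-- pigeonhole: a sequence of natural numbers between `1` and `n` cannot more than double
`⌊log₂ n⌋ + 1` times in a row -/
theorem exists_doubling (n : ℕ) (g : ℕ → ℕ) (h1 : ∀ μ, 1 ≤ g μ) (hn : ∀ μ, g μ ≤ n) :
    ∃ μ, μ ≤ Nat.log 2 n ∧ g (μ + 1) ≤ 2 * g μ := by
  by_contra hcon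
  push Not at hcon
  have key : ∀ μ, μ ≤ Nat.log 2 n + 1 → 2 ^ μ ≤ g μ := by
    intro μ
    induction μ with
    | zero =>
      intro _
      simpa using h1 0
    | succ μ ih =>
      intro hμ
      have h2 := ih (by omega)
      have h3 := hcon μ (by omega)
      have h4 : 2 ^ (μ + 1) = 2 * 2 ^ μ := by ring
      omega
  have h4 := key (Nat.log 2 n + 1) le_rfl
  have h5 : n < 2 ^ (Nat.log 2 n + 1) := Nat.lt_pow_succ_log_self (by norm_num) n
  have h6 := hn (Nat.log 2 n + 1)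
  omega

section defs

variable {n m : ℕ} (p : ℝ) (x : Fin n → Fin m → ℝ)

/-- the contribution of coordinate `k` to the `p`-th power distance of `a` and `b` -/
noncomputable def ww (k : Fin m) (a b : Fin n) : ℝ := |x a k - x b k| ^ p

/-- the `p`-th power distance -/
noncomputable def vv (a b : Fin n) : ℝ := ∑ k, ww p x k a b

/-- the distance -/
noncomputable def dd (a b : Fin n) : ℝ := (vv p x a b) ^ (1 / p)

/-- the relative contribution of coordinate `k` to the pair `a`, `b` -/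
noncomputable def rr (k : Fin m) (a b : Fin n) : ℝ := ww p x k a b / vv p x a b

/-- closed balls -/
noncomputable def ball (a : Fin n) (ρ : ℝ) : Finset (Fin n) := univ.filter (fun y => dd p x a y ≤ ρ)

/-- the potential of an ordered pair -/
noncomputable def phi (a b : Fin n) : ℝ := 1 / ((ball p x a (dd p x a b)).card : ℝ)

/-- the weight of coordinate `k` -/
noncomputable def TT (k : Fin m) : ℝ := ∑ a, ∑ b, phi p x a b * rr p x k a b

variable {p x}

theorem ww_nonneg (k : Fin m) (a b : Fin n) : 0 ≤ ww p x k a b :=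
  Real.rpow_nonneg (abs_nonneg _) _

theorem vv_nonneg (a b : Fin n) : 0 ≤ vv p x a b :=
  Finset.sum_nonneg (fun k _ => ww_nonneg k a b)

theorem ww_le_vv (k : Fin m) (a b : Fin n) : ww p x k a b ≤ vv p x a b :=
  Finset.single_le_sum (f := fun k => ww p x k a b) (fun k _ => ww_nonneg k a b)
    (Finset.mem_univ k)

theorem rr_nonneg (k : Fin m) (a b : Fin n) : 0 ≤ rr p x k a b :=
  div_nonneg (ww_nonneg k a b) (vv_nonneg a b)

theorem dd_nonneg (a b : Fin n) : 0 ≤ dd p x a b :=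
  Real.rpow_nonneg (vv_nonneg a b) _

theorem vv_self (hp : 0 < p) (a : Fin n) : vv p x a a = 0 := by
  unfold vv ww
  refine Finset.sum_eq_zero (fun k _ => ?_)
  rw [sub_self, abs_zero, Real.zero_rpow hp.ne']

theorem dd_self (hp : 0 < p) (a : Fin n) : dd p x a a = 0 := by
  unfold dd
  rw [vv_self hp, Real.zero_rpow (one_div_pos.mpr hp).ne']

theorem vv_comm (a b : Fin n) : vv p x a b = vv p x b a := by
  unfold vv ww
  exact Finset.sum_congr rfl (fun k _ => by rw [abs_sub_comm])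

theorem dd_comm (a b : Fin n) : dd p x a b = dd p x b a := by
  unfold dd
  rw [vv_comm]

theorem dd_triangle (hp : 1 ≤ p) (a b c : Fin n) : dd p x a c ≤ dd p x a b + dd p x b c := by
  have h := Real.Lp_add_le univ (fun k => x a k - x b k) (fun k => x b k - x c k) hp
  simp only [sub_add_sub_cancel] at h
  exact h

theorem dd_rpow (hp : 0 < p) (a b : Fin n) : dd p x a b ^ p = vv p x a b := by
  unfold dd
  rw [← Real.rpow_mul (vv_nonneg a b), one_div, inv_mul_cancel₀ hp.ne', Real.rpow_one]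

theorem vv_le_of_dd_le (hp : 0 < p) {a b : Fin n} {t : ℝ} (h : dd p x a b ≤ t) :
    vv p x a b ≤ t ^ p := by
  rw [← dd_rpow hp]
  exact Real.rpow_le_rpow (dd_nonneg a b) h hp.le

theorem dd_pos_of_vv_pos {a b : Fin n} (h : 0 < vv p x a b) : 0 < dd p x a b :=
  Real.rpow_pos_of_pos h _

theorem mem_ball (a y : Fin n) (ρ : ℝ) : y ∈ ball p x a ρ ↔ dd p x a y ≤ ρ := by
  unfold ball
  rw [Finset.mem_filter]
  exact ⟨fun h => h.2, fun h => ⟨Finset.mem_univ _, h⟩⟩

theorem self_mem_ball (hp : 0 < p) (a : Fin n) {ρ : ℝ} (hρ : 0 ≤ ρ) : a ∈ ball p x a ρ := by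
  rw [mem_ball, dd_self hp]
  exact hρ

theorem ball_card_pos (hp : 0 < p) (a : Fin n) {ρ : ℝ} (hρ : 0 ≤ ρ) :
    0 < ((ball p x a ρ).card : ℝ) := by
  exact_mod_cast Finset.card_pos.mpr ⟨a, self_mem_ball hp a hρ⟩

theorem ball_mono (a : Fin n) {ρ ρ' : ℝ} (h : ρ ≤ ρ') : ball p x a ρ ⊆ ball p x a ρ' := by
  intro y hy
  rw [mem_ball] at hy ⊢
  exact hy.trans h

theorem phi_nonneg (a b : Fin n) : 0 ≤ phi p x a b := by
  unfold phi
  positivity

/-- the potential of a pair is at least the reciprocal of the size of any set that contains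
the ball -/
theorem phi_ge (hp : 0 < p) (a b : Fin n) (B : Finset (Fin n))
    (hB : ball p x a (dd p x a b) ⊆ B) : 1 / (B.card : ℝ) ≤ phi p x a b := by
  unfold phi
  apply one_div_le_one_div_of_le (ball_card_pos hp a (dd_nonneg a b))
  exact_mod_cast Finset.card_le_card hB

theorem TT_nonneg (k : Fin m) : 0 ≤ TT p x k :=
  Finset.sum_nonneg (fun a _ => Finset.sum_nonneg (fun b _ =>
    mul_nonneg (phi_nonneg a b) (rr_nonneg k a b)))

theorem sum_rr_le_one (a b : Fin n) : ∑ k, rr p x k a b ≤ 1 := by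
  unfold rr
  rw [← Finset.sum_div]
  exact div_self_le_one _

/-- (A2): the weights add up to at most `n` times the harmonic sum -/
theorem sum_TT_le : ∑ k, TT p x k ≤ (n : ℝ) * ∑ t : Fin n, 1 / ((t : ℝ) + 1) := by
  have h1 : ∑ k, TT p x k = ∑ a, ∑ b, phi p x a b * ∑ k, rr p x k a b := by
    unfold TT
    rw [Finset.sum_comm]
    refine Finset.sum_congr rfl (fun a _ => ?_)
    rw [Finset.sum_comm]
    refine Finset.sum_congr rfl (fun b _ => ?_)
    rw [Finset.mul_sum]
  have h2 : ∀ a, ∑ b, phi p x a b * ∑ k, rr p x k a b ≤ ∑ t : Fin n, 1 / ((t : ℝ) + 1) := by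
    intro a
    have h3 : ∑ b, phi p x a b * ∑ k, rr p x k a b ≤ ∑ b, phi p x a b :=
      Finset.sum_le_sum (fun b _ => by
        have h4 : phi p x a b * ∑ k, rr p x k a b ≤ phi p x a b * 1 :=
          mul_le_mul_of_nonneg_left (sum_rr_le_one a b) (phi_nonneg a b)
        rwa [mul_one] at h4)
    exact h3.trans (sum_inv_count_le (fun y => dd p x a y))
  rw [h1]
  calc ∑ a, ∑ b, phi p x a b * ∑ k, rr p x k a b
      ≤ ∑ _a : Fin n, ∑ t : Fin n, 1 / ((t : ℝ) + 1) := Finset.sum_le_sum (fun a _ => h2 a)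
    _ = (n : ℝ) * ∑ t : Fin n, 1 / ((t : ℝ) + 1) := by
        rw [Finset.sum_const, Finset.card_univ, Fintype.card_fin, nsmul_eq_mul]

end defs

section main

variable {n m : ℕ} {p : ℝ} {x : Fin n → Fin m → ℝ}

/-- for `0 ≤ w ≤ v ≤ U`, `0 < U`: `w / U ≤ w / v` (also when `v = 0`, since then `w = 0`) -/
theorem div_le_div_aux {w v U : ℝ} (hw : 0 ≤ w) (hwv : w ≤ v) (hvU : v ≤ U) (_hU : 0 < U) :
    w / U ≤ w / v := by
  rcases (le_trans hw hwv).eq_or_lt with h0 | hpos
  · have hw0 : w = 0 := le_antisymm (by rw [h0]; exact hwv) hw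
    rw [hw0]
    simp
  · exact div_le_div_of_nonneg_left hw hpos hvU

/-- the relative contributions of coordinate `k` to the pairs `(i, l)` and `(j, l)`, for a
point `l` within `C` times the distance of `i` and `j` from `i` -/
theorem rr_add_ge (hp : 1 ≤ p) (k : Fin m) (i j l : Fin n) (hv : 0 < vv p x i j) (C : ℝ)
    (hC : 1 ≤ C) (hl : dd p x i l ≤ C * dd p x i j) :
    2 ^ (1 - p) * rr p x k i j / (C + 1) ^ p ≤ rr p x k i l + rr p x k j l := by
  have hp0 : 0 < p := by linarith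
  have hρ0 : 0 < dd p x i j := dd_pos_of_vv_pos hv
  have hC1 : 0 < C + 1 := by linarith
  have hU0 : 0 < ((C + 1) * dd p x i j) ^ p := Real.rpow_pos_of_pos (mul_pos hC1 hρ0) _
  have hUeq : ((C + 1) * dd p x i j) ^ p = (C + 1) ^ p * vv p x i j := by
    rw [Real.mul_rpow hC1.le hρ0.le, dd_rpow hp0]
  have h1 : vv p x i l ≤ ((C + 1) * dd p x i j) ^ p :=
    vv_le_of_dd_le hp0 (hl.trans (by nlinarith))
  have h2 : vv p x j l ≤ ((C + 1) * dd p x i j) ^ p := by
    apply vv_le_of_dd_le hp0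
    have h3 := dd_triangle (x := x) hp j i l
    rw [dd_comm j i] at h3
    linarith
  have h4 : ww p x k i l / ((C + 1) * dd p x i j) ^ p ≤ rr p x k i l :=
    div_le_div_aux (ww_nonneg _ _ _) (ww_le_vv _ _ _) h1 hU0
  have h5 : ww p x k j l / ((C + 1) * dd p x i j) ^ p ≤ rr p x k j l :=
    div_le_div_aux (ww_nonneg _ _ _) (ww_le_vv _ _ _) h2 hU0
  have h6 : 2 ^ (1 - p) * ww p x k i j ≤ ww p x k i l + ww p x k j l := by
    have h7 := abs_sub_rpow_le (x i k - x l k) (x j k - x l k) p hp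
    rw [sub_sub_sub_cancel_right] at h7
    have h8 : (2 : ℝ) ^ (1 - p) * 2 ^ (p - 1) = 1 := by
      rw [← Real.rpow_add (by norm_num)]
      simp
    have h9 : (0 : ℝ) ≤ 2 ^ (1 - p) := by positivity
    unfold ww
    calc 2 ^ (1 - p) * |x i k - x j k| ^ p
        ≤ 2 ^ (1 - p) * (2 ^ (p - 1) * (|x i k - x l k| ^ p + |x j k - x l k| ^ p)) :=
          mul_le_mul_of_nonneg_left h7 h9
      _ = |x i k - x l k| ^ p + |x j k - x l k| ^ p := by rw [← mul_assoc, h8, one_mul]
  have h10 : ww p x k i j = rr p x k i j * vv p x i j := by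
    unfold rr
    rw [div_mul_cancel₀ _ hv.ne']
  have hCp : 0 < (C + 1) ^ p := Real.rpow_pos_of_pos hC1 _
  have h11 : 2 ^ (1 - p) * rr p x k i j / (C + 1) ^ p
      = 2 ^ (1 - p) * ww p x k i j / ((C + 1) * dd p x i j) ^ p := by
    rw [hUeq, h10]
    field_simp
  rw [h11]
  calc 2 ^ (1 - p) * ww p x k i j / ((C + 1) * dd p x i j) ^ p
      ≤ (ww p x k i l + ww p x k j l) / ((C + 1) * dd p x i j) ^ p :=
        div_le_div_of_nonneg_right h6 hU0.le
    _ = ww p x k i l / ((C + 1) * dd p x i j) ^ p + ww p x k j l / ((C + 1) * dd p x i j) ^ p :=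
        add_div _ _ _
    _ ≤ rr p x k i l + rr p x k j l := add_le_add h4 h5

/-- (A1): the relative contribution of a coordinate to a pair is at most
`2^(1+p) (2 ⌊log₂ n⌋ + 2)^p` times the weight of the coordinate -/
theorem rr_le_TT (hp : 1 ≤ p) (k : Fin m) (i j : Fin n) :
    rr p x k i j ≤ 2 ^ (1 + p) * (2 * (Nat.log 2 n : ℝ) + 2) ^ p * TT p x k := by
  have hp0 : 0 < p := by linarith
  have hM0 : (0 : ℝ) ≤ (Nat.log 2 n : ℝ) := Nat.cast_nonneg _
  have hT : 0 ≤ TT p x k := TT_nonneg k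
  rcases (vv_nonneg (p := p) (x := x) i j).eq_or_lt with hv0 | hv
  · have h0 : rr p x k i j = 0 := by
      unfold rr
      rw [← hv0, div_zero]
    rw [h0]
    positivity
  have hρ0 : 0 < dd p x i j := dd_pos_of_vv_pos hv
  have hij : i ≠ j := by
    rintro rfl
    rw [vv_self hp0] at hv
    exact lt_irrefl _ hv
  have hR0 : 0 ≤ rr p x k i j := rr_nonneg k i j
  -- the doubling scale
  obtain ⟨μ, hμ, hdbl⟩ := exists_doubling n
    (fun μ => (ball p x i ((2 * (μ : ℝ) + 1) * dd p x i j)).card)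
    (fun μ => Finset.card_pos.mpr ⟨i, self_mem_ball hp0 i (by positivity)⟩)
    (fun μ => by
      have h := Finset.card_le_univ (ball p x i ((2 * (μ : ℝ) + 1) * dd p x i j))
      rwa [Fintype.card_fin] at h)
  have hμ0 : (0 : ℝ) ≤ (μ : ℝ) := Nat.cast_nonneg μ
  have hC1 : (1 : ℝ) ≤ 2 * (μ : ℝ) + 1 := by linarith
  have hB3' : ball p x i ((2 * ((μ + 1 : ℕ) : ℝ) + 1) * dd p x i j)
      = ball p x i ((2 * (μ : ℝ) + 1 + 2) * dd p x i j) := by
    congr 1
    push_cast
    ring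
  simp only [hB3'] at hdbl
  set C : ℝ := 2 * (μ : ℝ) + 1 with hC
  set B1 := ball p x i (C * dd p x i j) with hB1
  set B3 := ball p x i ((C + 2) * dd p x i j) with hB3
  have hiB1 : i ∈ B1 := self_mem_ball hp0 i (by positivity)
  set B1' := (B1.erase i).erase j with hB1'
  have hcard' : B1.card ≤ B1'.card + 2 := by
    have h1 : B1.card - 1 ≤ (B1.erase i).card := Finset.pred_card_le_card_erase
    have h2 : (B1.erase i).card - 1 ≤ B1'.card := Finset.pred_card_le_card_erase
    omega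
  have hjB1' : j ∉ B1' := Finset.notMem_erase j _
  have hC10 : 0 < C + 1 := by linarith
  have hCp : 0 < (C + 1) ^ p := Real.rpow_pos_of_pos hC10 _
  have hB3pos : 0 < (B3.card : ℝ) := ball_card_pos hp0 i (by positivity)
  have hB1pos : 0 < (B1.card : ℝ) := ball_card_pos hp0 i (by positivity)
  have h2p : (0 : ℝ) < 2 ^ (1 - p) := by positivity
  have hq0 : 0 ≤ 2 ^ (1 - p) * rr p x k i j / (C + 1) ^ p := by positivity
  -- the two rows `i` and `j`
  have hrow : ∀ l ∈ B1', 2 ^ (1 - p) * rr p x k i j / (C + 1) ^ p / (B3.card : ℝ)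
      ≤ phi p x i l * rr p x k i l + phi p x j l * rr p x k j l := by
    intro l hl
    have hlB1 : l ∈ B1 := Finset.mem_of_mem_erase (Finset.mem_of_mem_erase hl)
    have hdl : dd p x i l ≤ C * dd p x i j := (mem_ball i l _).mp hlB1
    have h1 : 2 ^ (1 - p) * rr p x k i j / (C + 1) ^ p ≤ rr p x k i l + rr p x k j l :=
      rr_add_ge hp k i j l hv C hC1 hdl
    have h2 : 1 / (B3.card : ℝ) ≤ phi p x i l := by
      apply phi_ge hp0
      exact ball_mono i (by nlinarith)
    have h3 : 1 / (B3.card : ℝ) ≤ phi p x j l := by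
      apply phi_ge hp0
      intro y hy
      rw [mem_ball] at hy
      rw [hB3, mem_ball]
      have h4 := dd_triangle (x := x) hp i j y
      have h5 := dd_triangle (x := x) hp j i l
      rw [dd_comm j i] at h5
      nlinarith
    have h6 : 0 ≤ 1 / (B3.card : ℝ) := by positivity
    calc 2 ^ (1 - p) * rr p x k i j / (C + 1) ^ p / (B3.card : ℝ)
        = (1 / (B3.card : ℝ)) * (2 ^ (1 - p) * rr p x k i j / (C + 1) ^ p) := by ring
      _ ≤ (1 / (B3.card : ℝ)) * (rr p x k i l + rr p x k j l) :=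
          mul_le_mul_of_nonneg_left h1 h6
      _ = (1 / (B3.card : ℝ)) * rr p x k i l + (1 / (B3.card : ℝ)) * rr p x k j l := by ring
      _ ≤ phi p x i l * rr p x k i l + phi p x j l * rr p x k j l :=
          add_le_add (mul_le_mul_of_nonneg_right h2 (rr_nonneg k i l))
            (mul_le_mul_of_nonneg_right h3 (rr_nonneg k j l))
  have hijt : rr p x k i j / (B1.card : ℝ) ≤ phi p x i j * rr p x k i j := by
    have h2 : 1 / (B1.card : ℝ) ≤ phi p x i j := by
      apply phi_ge hp0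
      exact ball_mono i (by nlinarith)
    calc rr p x k i j / (B1.card : ℝ) = (1 / (B1.card : ℝ)) * rr p x k i j := by ring
      _ ≤ phi p x i j * rr p x k i j := mul_le_mul_of_nonneg_right h2 hR0
  -- lower bound for the weight of the coordinate
  have ht0 : ∀ a b : Fin n, 0 ≤ phi p x a b * rr p x k a b :=
    fun a b => mul_nonneg (phi_nonneg a b) (rr_nonneg k a b)
  have hTlow : phi p x i j * rr p x k i j
      + ∑ l ∈ B1', (phi p x i l * rr p x k i l + phi p x j l * rr p x k j l) ≤ TT p x k := by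
    have h1 : ∑ b, phi p x i b * rr p x k i b + ∑ b, phi p x j b * rr p x k j b ≤ TT p x k := by
      have h2 : ∑ a ∈ ({i, j} : Finset (Fin n)), ∑ b, phi p x a b * rr p x k a b
          ≤ ∑ a, ∑ b, phi p x a b * rr p x k a b :=
        Finset.sum_le_sum_of_subset_of_nonneg (Finset.subset_univ _)
          (fun a _ _ => Finset.sum_nonneg (fun b _ => ht0 a b))
      rw [Finset.sum_pair hij] at h2
      exact h2
    have h3 : phi p x i j * rr p x k i j + ∑ l ∈ B1', phi p x i l * rr p x k i l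
        ≤ ∑ b, phi p x i b * rr p x k i b := by
      calc phi p x i j * rr p x k i j + ∑ l ∈ B1', phi p x i l * rr p x k i l
          = ∑ l ∈ insert j B1', phi p x i l * rr p x k i l :=
            (Finset.sum_insert (f := fun l => phi p x i l * rr p x k i l) hjB1').symm
        _ ≤ ∑ b, phi p x i b * rr p x k i b :=
          Finset.sum_le_sum_of_subset_of_nonneg (Finset.subset_univ _) (fun b _ _ => ht0 i b)
    have h4 : ∑ l ∈ B1', phi p x j l * rr p x k j l ≤ ∑ b, phi p x j b * rr p x k j b :=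
      Finset.sum_le_sum_of_subset_of_nonneg (Finset.subset_univ _) (fun b _ _ => ht0 j b)
    rw [Finset.sum_add_distrib]
    linarith
  have hsum : (B1'.card : ℝ) * (2 ^ (1 - p) * rr p x k i j / (C + 1) ^ p / (B3.card : ℝ))
      ≤ ∑ l ∈ B1', (phi p x i l * rr p x k i l + phi p x j l * rr p x k j l) := by
    have h := Finset.card_nsmul_le_sum B1'
      (fun l => phi p x i l * rr p x k i l + phi p x j l * rr p x k j l)
      (2 ^ (1 - p) * rr p x k i j / (C + 1) ^ p / (B3.card : ℝ)) hrow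
    rwa [nsmul_eq_mul] at h
  -- numerics
  have hqR : 2 ^ (1 - p) * rr p x k i j / (C + 1) ^ p ≤ rr p x k i j := by
    rw [div_le_iff₀ hCp]
    have h1 : (2 : ℝ) ^ (1 - p) ≤ 1 := Real.rpow_le_one_of_one_le_of_nonpos (by norm_num) (by linarith)
    have h2 : (1 : ℝ) ≤ (C + 1) ^ p := Real.one_le_rpow (by linarith) hp0.le
    nlinarith
  have hfinal : 2 ^ (1 - p) * rr p x k i j / (C + 1) ^ p / 4
      ≤ rr p x k i j / (B1.card : ℝ)
        + (B1'.card : ℝ) * (2 ^ (1 - p) * rr p x k i j / (C + 1) ^ p / (B3.card : ℝ)) := by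
    have hb3 : (B3.card : ℝ) ≤ 2 * (B1.card : ℝ) := by exact_mod_cast hdbl
    have hb1' : (B1.card : ℝ) ≤ (B1'.card : ℝ) + 2 := by exact_mod_cast hcard'
    have hterm2 : 0 ≤ (B1'.card : ℝ) * (2 ^ (1 - p) * rr p x k i j / (C + 1) ^ p / (B3.card : ℝ)) := by
      positivity
    rcases le_or_gt (B1.card : ℝ) 3 with h3 | h3
    · have h4 : rr p x k i j / 3 ≤ rr p x k i j / (B1.card : ℝ) :=
        div_le_div_of_nonneg_left hR0 hB1pos h3
      linarith
    · have h3n : 3 < B1.card := by exact_mod_cast h3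
      have h3r : (4 : ℝ) ≤ (B1.card : ℝ) := by exact_mod_cast h3n
      have h4 : (1 : ℝ) / 4 ≤ (B1'.card : ℝ) / (B3.card : ℝ) := by
        rw [le_div_iff₀ hB3pos]
        linarith
      have h5 : (B1'.card : ℝ) * (2 ^ (1 - p) * rr p x k i j / (C + 1) ^ p / (B3.card : ℝ))
          = (2 ^ (1 - p) * rr p x k i j / (C + 1) ^ p) * ((B1'.card : ℝ) / (B3.card : ℝ)) := by
        ring
      have h6 : (2 ^ (1 - p) * rr p x k i j / (C + 1) ^ p) * (1 / 4)
          ≤ (2 ^ (1 - p) * rr p x k i j / (C + 1) ^ p) * ((B1'.card : ℝ) / (B3.card : ℝ)) :=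
        mul_le_mul_of_nonneg_left h4 hq0
      have h7 : 0 ≤ rr p x k i j / (B1.card : ℝ) := by positivity
      rw [h5]
      linarith
  have hquarter : 2 ^ (1 - p) * rr p x k i j / (C + 1) ^ p / 4 ≤ TT p x k := by
    linarith
  -- conclusion
  have h2pow : (2 : ℝ) ^ (1 + p) * 2 ^ (1 - p) = 4 := by
    rw [← Real.rpow_add (by norm_num), show (1 + p) + (1 - p) = (2 : ℝ) by ring, Real.rpow_two]
    norm_num
  have hRe : rr p x k i j
      = 2 ^ (1 + p) * (C + 1) ^ p * (2 ^ (1 - p) * rr p x k i j / (C + 1) ^ p / 4) := by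
    have h1 : 2 ^ (1 + p) * (C + 1) ^ p * (2 ^ (1 - p) * rr p x k i j / (C + 1) ^ p / 4)
        = (2 ^ (1 + p) * 2 ^ (1 - p)) * rr p x k i j / 4 := by
      field_simp
    rw [h1, h2pow]
    ring
  have hCM : (C + 1) ^ p ≤ (2 * (Nat.log 2 n : ℝ) + 2) ^ p := by
    apply Real.rpow_le_rpow hC10.le _ hp0.le
    have h1 : (μ : ℝ) ≤ (Nat.log 2 n : ℝ) := by exact_mod_cast hμ
    rw [hC]
    linarith
  have h2p1 : (0 : ℝ) < 2 ^ (1 + p) := by positivity
  calc rr p x k i j
      = 2 ^ (1 + p) * (C + 1) ^ p * (2 ^ (1 - p) * rr p x k i j / (C + 1) ^ p / 4) := hRe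
    _ ≤ 2 ^ (1 + p) * (C + 1) ^ p * TT p x k :=
        mul_le_mul_of_nonneg_left hquarter (by positivity)
    _ ≤ 2 ^ (1 + p) * (2 * (Nat.log 2 n : ℝ) + 2) ^ p * TT p x k := by
        apply mul_le_mul_of_nonneg_right _ hT
        exact mul_le_mul_of_nonneg_left hCM h2p1.le

end main

/-- **Pair-sensitivity bound.**  For `p ≥ 1` there is a constant `A` such that the coordinates
of every `n`-point configuration in `ℝ^m` (`n ≥ 2`) have weights `s k ≥ 0` with
`|x a k - x b k|^p ≤ s k * ∑ k', |x a k' - x b k'|^p` for all pairs and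
`∑ k, s k ≤ A n (log n)^(p+1)`. -/
theorem sens (p : ℝ) (hp : 1 ≤ p) : ∃ A : ℝ, 0 ≤ A ∧ ∀ (n m : ℕ), 2 ≤ n →
    ∀ x : Fin n → Fin m → ℝ, ∃ s : Fin m → ℝ, (∀ k, 0 ≤ s k) ∧
      (∀ k a b, |x a k - x b k| ^ p ≤ s k * ∑ k', |x a k' - x b k'| ^ p) ∧
      ∑ k, s k ≤ A * n * Real.log n ^ (p + 1) := by
  have hp0 : 0 < p := by linarith
  have hl2 : 0 < Real.log 2 := Real.log_pos (by norm_num)
  have hA0 : 0 ≤ 2 ^ (1 + p) * (4 / Real.log 2) ^ p * (1 + 1 / Real.log 2) := by positivity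
  refine ⟨2 ^ (1 + p) * (4 / Real.log 2) ^ p * (1 + 1 / Real.log 2), hA0, fun n m hn x => ?_⟩
  have hc00 : 0 ≤ 2 ^ (1 + p) * (2 * (Nat.log 2 n : ℝ) + 2) ^ p := by positivity
  refine ⟨fun k => 2 ^ (1 + p) * (2 * (Nat.log 2 n : ℝ) + 2) ^ p * TT p x k,
    fun k => mul_nonneg hc00 (TT_nonneg k), fun k a b => ?_, ?_⟩
  · have h1 := rr_le_TT (x := x) hp k a b
    show ww p x k a b ≤ 2 ^ (1 + p) * (2 * (Nat.log 2 n : ℝ) + 2) ^ p * TT p x k * vv p x a b
    rcases (vv_nonneg (p := p) (x := x) a b).eq_or_lt with hv0 | hv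
    · have h0 : ww p x k a b = 0 :=
        le_antisymm (by rw [hv0]; exact ww_le_vv k a b) (ww_nonneg k a b)
      rw [h0, ← hv0, mul_zero]
    · have h2 : ww p x k a b = rr p x k a b * vv p x a b := by
        unfold rr
        rw [div_mul_cancel₀ _ hv.ne']
      rw [h2]
      exact mul_le_mul_of_nonneg_right h1 hv.le
  · rw [← Finset.mul_sum]
    have h1 := sum_TT_le (p := p) (x := x)
    have hH : ∑ t : Fin n, 1 / ((t : ℝ) + 1) ≤ 1 + Real.log n := by
      have h2 := harmonic_le_one_add_log n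
      have h3 : ((harmonic n : ℚ) : ℝ) = ∑ t : Fin n, 1 / ((t : ℝ) + 1) := by
        rw [harmonic, Fin.sum_univ_eq_sum_range (fun i => 1 / ((i : ℝ) + 1)) n]
        push_cast
        exact Finset.sum_congr rfl (fun i _ => by rw [one_div])
      rw [← h3]
      exact h2
    have hn2 : (2 : ℝ) ≤ n := by exact_mod_cast hn
    have hL : Real.log 2 ≤ Real.log n := Real.log_le_log (by norm_num) hn2
    have hL0 : 0 < Real.log n := lt_of_lt_of_le hl2 hL
    have hM : (Nat.log 2 n : ℝ) ≤ Real.log n / Real.log 2 := by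
      have h4 : 2 ^ Nat.log 2 n ≤ n := Nat.pow_log_le_self 2 (by omega)
      have h5 : (2 : ℝ) ^ Nat.log 2 n ≤ n := by exact_mod_cast h4
      have h6 := Real.log_le_log (by positivity) h5
      rw [Real.log_pow] at h6
      rw [le_div_iff₀ hl2]
      exact h6
    have h7 : 1 ≤ Real.log n / Real.log 2 := by
      rw [le_div_iff₀ hl2]
      linarith
    have h2M : 2 * (Nat.log 2 n : ℝ) + 2 ≤ 4 / Real.log 2 * Real.log n := by
      have h8 : 4 / Real.log 2 * Real.log n = 4 * (Real.log n / Real.log 2) := by ring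
      rw [h8]
      linarith
    have hpow : (2 * (Nat.log 2 n : ℝ) + 2) ^ p ≤ (4 / Real.log 2) ^ p * Real.log n ^ p := by
      rw [← Real.mul_rpow (by positivity) hL0.le]
      exact Real.rpow_le_rpow (by positivity) h2M hp0.le
    have hH2 : 1 + Real.log n ≤ (1 + 1 / Real.log 2) * Real.log n := by
      have h9 : (1 + 1 / Real.log 2) * Real.log n = Real.log n + Real.log n / Real.log 2 := by
        ring
      linarith
    have hLp : Real.log n ^ (p + 1) = Real.log n ^ p * Real.log n :=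
      Real.rpow_add_one hL0.ne' p
    have hn0 : (0 : ℝ) ≤ n := Nat.cast_nonneg n
    calc 2 ^ (1 + p) * (2 * (Nat.log 2 n : ℝ) + 2) ^ p * ∑ k, TT p x k
        ≤ 2 ^ (1 + p) * (2 * (Nat.log 2 n : ℝ) + 2) ^ p
            * ((n : ℝ) * ∑ t : Fin n, 1 / ((t : ℝ) + 1)) := mul_le_mul_of_nonneg_left h1 hc00
      _ ≤ 2 ^ (1 + p) * (2 * (Nat.log 2 n : ℝ) + 2) ^ p
            * ((n : ℝ) * ((1 + 1 / Real.log 2) * Real.log n)) := by
          apply mul_le_mul_of_nonneg_left _ hc00
          exact mul_le_mul_of_nonneg_left (hH.trans hH2) hn0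
      _ ≤ (2 ^ (1 + p) * ((4 / Real.log 2) ^ p * Real.log n ^ p))
            * ((n : ℝ) * ((1 + 1 / Real.log 2) * Real.log n)) := by
          apply mul_le_mul_of_nonneg_right _ (by positivity)
          exact mul_le_mul_of_nonneg_left hpow (by positivity)
      _ = 2 ^ (1 + p) * (4 / Real.log 2) ^ p * (1 + 1 / Real.log 2) * n
            * Real.log n ^ (p + 1) := by
          rw [hLp]
          ring

end Vale.Agent.Lib.P249.H77
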