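import Mathlib
import Vale.Agent.Lib.P249.helper52.Sampling
import Vale.Agent.Lib.P249.helper77.Sens
import Vale.Agent.Lib.P249.helper77.Assemble

/-!
P249: near-linear dimension reduction in `ℓ_p`, hypothesis-free: the sensitivity bound
(`H77.sens`), the sampling lemma (`sampling`, helper52) and the assembly (`H77.coords_of`,
`H77.pilp_of_coords`).
-/

namespace Vale.Agent.Lib.P249.H77

open Finset

/-- **Near-linear dimension reduction in coordinates.** -/
theorem near_linear_coords (p : ℝ) (hp : 1 ≤ p) (D : ℝ) (hD : 1 < D) :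
    ∃ C : ℝ, ∀ (n m : ℕ), 2 ≤ n → ∀ x : Fin n → Fin m → ℝ,
      ∃ (d : ℕ) (y : Fin n → Fin d → ℝ), (d : ℝ) ≤ C * n * Real.log n ^ (p + 2) ∧
        ∀ a b, ∑ k, |x a k - x b k| ^ p ≤ ∑ l, |y a l - y b l| ^ p ∧
          ∑ l, |y a l - y b l| ^ p ≤ D ^ p * ∑ k, |x a k - x b k| ^ p := by
  obtain ⟨A, hA0, hA⟩ := sens p hp
  exact coords_of p hp A hA0 (fun n m x hn => hA n m hn x)
    (fun n m w s v S hw hv hs0 hs hS hSpos ε hε hε1 d hd =>
      sampling w s v S hw hv hs0 hs hS hSpos ε hε hε1 d hd) D hD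

/-- **Near-linear dimension reduction in `ℓ_p`.**  For `1 ≤ p < ∞` and `D > 1` there is `C`
such that every `n`-point subset of `ℓ_p^m` (`n ≥ 2`, any `m`) has a map into `ℓ_p^d`,
`d ≤ C n (log n)^(p+2)`, that does not decrease distances and increases them by at most the
factor `D`. -/
theorem near_linear (p : ENNReal) [Fact (1 ≤ p)] (hp : p ≠ ⊤) (D : ℝ) (hD : 1 < D) :
    ∃ C : ℝ, ∀ (n m : ℕ), 2 ≤ n → ∀ x : Fin n → PiLp p (fun _ : Fin m => ℝ),
      ∃ (d : ℕ) (y : Fin n → PiLp p (fun _ : Fin d => ℝ)),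
        (d : ℝ) ≤ C * n * Real.log n ^ (p.toReal + 2) ∧
        ∀ i j, dist (x i) (x j) ≤ dist (y i) (y j) ∧ dist (y i) (y j) ≤ D * dist (x i) (x j) := by
  have hp1 : 1 ≤ p.toReal := by
    have h1 : (1 : ENNReal) ≤ p := Fact.out
    have h2 := ENNReal.toReal_mono hp h1
    simpa using h2
  exact pilp_of_coords p hp D hD (near_linear_coords p.toReal hp1 D hD)

end Vale.Agent.Lib.P249.H77
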